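import Mathlib
import Vale.Agent.Lib.P216.Main

/-!
# P216: infinitely many closed geodesics on manifolds with a non-abelian symmetry group
-/

open scoped ContDiff

namespace Vale.Agent.Results.P216.SymmetricManifolds

/-- Euclidean space `ℝ^N`. -/
abbrev E (N : ℕ) := EuclideanSpace ℝ (Fin N)

/-- Linear endomorphisms of `ℝ^N`. -/
abbrev Op (N : ℕ) := E N →L[ℝ] E N

/-- The value `A x`. -/
def ap {N : ℕ} (A : Op N) (x : E N) : E N := A x

/-- The Euclidean inner product. -/
noncomputable def ip {N : ℕ} (x y : E N) : ℝ := inner ℝ x y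

/-- The multiple `t A`. -/
noncomputable def sm {N : ℕ} (t : ℝ) (A : Op N) : Op N := t • A

/-- The exponential of an endomorphism. -/
noncomputable def expo {N : ℕ} (A : Op N) : Op N := NormedSpace.exp A

/-- `M` is a smooth `m`-dimensional submanifold (without boundary) of `ℝ^N`: near each of its
points `M` is flattened to `ℝ^m × 0` by a diffeomorphism between open subsets of `ℝ^N`. -/
def IsSubmanifold {N : ℕ} (m : ℕ) (M : Set (E N)) : Prop :=
  ∀ x ∈ M, ∃ Φ : OpenPartialHomeomorph (E N) (E N),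
    x ∈ Φ.source ∧ ContDiffOn ℝ ∞ Φ Φ.source ∧ ContDiffOn ℝ ∞ Φ.symm Φ.target ∧
      ∀ y ∈ Φ.source, y ∈ M ↔ ∀ i : Fin N, m ≤ (i : ℕ) → Φ y i = 0

/-- A geodesic of the submanifold `M` with the induced Riemannian metric: a smooth curve `c` in
`M` whose second derivative `c''(t)` is orthogonal to `M`, that is to the velocity of every smooth
curve in `M` through `c(t)`. -/
def IsGeodesic {N : ℕ} (M : Set (E N)) (c : ℝ → E N) : Prop :=
  ContDiff ℝ ∞ c ∧ (∀ t, c t ∈ M) ∧
    ∀ t, ∀ β : ℝ → E N, ContDiff ℝ ∞ β → (∀ s, β s ∈ M) → β 0 = c t →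
      ip (deriv (deriv c) t) (deriv β 0) = 0

/-- A closed geodesic: a nonconstant periodic geodesic. -/
def IsClosedGeodesic {N : ℕ} (M : Set (E N)) (c : ℝ → E N) : Prop :=
  IsGeodesic M c ∧ (∃ s t, c s ≠ c t) ∧ ∃ τ : ℝ, 0 < τ ∧ ∀ t, c (t + τ) = c t

/-- The set of the images of all closed geodesics of `M`. -/
def ClosedGeodesicImages {N : ℕ} (M : Set (E N)) : Set (Set (E N)) :=
  {K | ∃ c : ℝ → E N, IsClosedGeodesic M c ∧ K = Set.range c}

/-- `A` is skew-symmetric. -/
def Skew {N : ℕ} (A : Op N) : Prop := ∀ x y, ip (ap A x) y = - ip x (ap A y)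

/-- The commutator relation `[A,B] = C`. -/
def Bracket {N : ℕ} (A B C : Op N) : Prop := ∀ x, ap A (ap B x) - ap B (ap A x) = ap C x

/-- `A, B, C` are skew-symmetric with `[A,B] = C`, `[B,C] = A`, `[C,A] = B`: the images of the
standard basis under an orthogonal representation of `so(3) = su(2)` on `ℝ^N`. -/
def IsSo3Triple {N : ℕ} (A B C : Op N) : Prop :=
  Skew A ∧ Skew B ∧ Skew C ∧ Bracket A B C ∧ Bracket B C A ∧ Bracket C A B

/-- The one-parameter group `exp(tA)` maps `M` to itself. -/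
def Preserves {N : ℕ} (A : Op N) (M : Set (E N)) : Prop :=
  ∀ t : ℝ, ∀ y ∈ M, ap (expo (sm t A)) y ∈ M

/-- Let `M` be a closed smooth submanifold of `ℝ^N` of dimension `m ≥ 2`, with the induced
Riemannian metric, invariant under an orthogonal representation of `SU(2)` on `ℝ^N` which acts
nontrivially on `M` (`A y ≠ 0` for some `y ∈ M`).  Then `M` has infinitely many closed geodesics
with pairwise distinct images. -/
theorem result (N m : ℕ) (_hm : 2 ≤ m) (M : Set (E N)) (_hM : IsSubmanifold m M)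
    (hMc : IsCompact M) (A B C : Op N) (h : IsSo3Triple A B C)
    (hA : Preserves A M) (hB : Preserves B M) (hC : Preserves C M)
    (hne : ∃ y ∈ M, ap A y ≠ 0) : (ClosedGeodesicImages M).Infinite :=
  _root_.P216.infinite_geodesics M hMc A B C h.1 h.2.1 h.2.2.1
    (ContinuousLinearMap.ext h.2.2.2.1) (ContinuousLinearMap.ext h.2.2.2.2.1)
    (ContinuousLinearMap.ext h.2.2.2.2.2) hA hB hC hne

end Vale.Agent.Results.P216.SymmetricManifolds
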