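import Mathlib
import Vale.Agent.Lib.P216.Two

/-!
# P216: infinitely many closed geodesics on manifolds with two independent symmetries
-/

open scoped ContDiff

namespace Vale.Agent.Results.P216.TwoSymmetries

/-- Euclidean space `ℝ^N`. -/
abbrev E (N : ℕ) := EuclideanSpace ℝ (Fin N)

/-- Linear endomorphisms of `ℝ^N`. -/
abbrev Op (N : ℕ) := E N →L[ℝ] E N

/-- The value `A x`. -/
def ap {N : ℕ} (A : Op N) (x : E N) : E N := A x

/-- The Euclidean inner product. -/
noncomputable def ip {N : ℕ} (x y : E N) : ℝ := inner ℝ x y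

/-- The exponential `exp(tA)`. -/
noncomputable def expo {N : ℕ} (t : ℝ) (A : Op N) : Op N := NormedSpace.exp (t • A)

/-- `M` is a smooth `m`-dimensional submanifold (without boundary) of `ℝ^N`: near each of its
points `M` is flattened to `ℝ^m × 0` by a diffeomorphism between open subsets of `ℝ^N`. -/
def IsSubmanifold {N : ℕ} (m : ℕ) (M : Set (E N)) : Prop :=
  ∀ x ∈ M, ∃ Φ : OpenPartialHomeomorph (E N) (E N),
    x ∈ Φ.source ∧ ContDiffOn ℝ ∞ Φ Φ.source ∧ ContDiffOn ℝ ∞ Φ.symm Φ.target ∧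
      ∀ y ∈ Φ.source, y ∈ M ↔ ∀ i : Fin N, m ≤ (i : ℕ) → Φ y i = 0

/-- A geodesic of the submanifold `M` with the induced Riemannian metric: a smooth curve `c` in
`M` whose second derivative `c''(t)` is orthogonal to `M`, that is to the velocity of every smooth
curve in `M` through `c(t)`. -/
def IsGeodesic {N : ℕ} (M : Set (E N)) (c : ℝ → E N) : Prop :=
  ContDiff ℝ ∞ c ∧ (∀ t, c t ∈ M) ∧
    ∀ t, ∀ β : ℝ → E N, ContDiff ℝ ∞ β → (∀ s, β s ∈ M) → β 0 = c t →
      ip (deriv (deriv c) t) (deriv β 0) = 0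

/-- A closed geodesic: a nonconstant periodic geodesic. -/
def IsClosedGeodesic {N : ℕ} (M : Set (E N)) (c : ℝ → E N) : Prop :=
  IsGeodesic M c ∧ (∃ s t, c s ≠ c t) ∧ ∃ τ : ℝ, 0 < τ ∧ ∀ t, c (t + τ) = c t

/-- The set of the images of all closed geodesics of `M`. -/
def ClosedGeodesicImages {N : ℕ} (M : Set (E N)) : Set (Set (E N)) :=
  {K | ∃ c : ℝ → E N, IsClosedGeodesic M c ∧ K = Set.range c}

/-- `A` is skew-symmetric. -/
def Skew {N : ℕ} (A : Op N) : Prop := ∀ x y, ip (ap A x) y = - ip x (ap A y)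

/-- `A` is an infinitesimal symmetry of `M`: it is skew-symmetric and `exp(tA)` maps `M` to
itself for all `t`; its restriction `y ↦ A y` is a Killing field of `M`. -/
def IsSymmetry {N : ℕ} (M : Set (E N)) (A : Op N) : Prop :=
  Skew A ∧ ∀ t : ℝ, ∀ y ∈ M, ap (expo t A) y ∈ M

/-- `x` is a point of `M` where the length of the Killing field `A` is maximal. -/
def IsFastest {N : ℕ} (M : Set (E N)) (A : Op N) (x : E N) : Prop :=
  x ∈ M ∧ ∀ y ∈ M, ip (ap A y) (ap A y) ≤ ip (ap A x) (ap A x)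

/-- Let `M` be a closed smooth submanifold of `ℝ^N` of dimension `m ≥ 2`, with the induced
Riemannian metric.  Let `A`, `B` be infinitesimal symmetries, `A` not identically zero on `M` and
generating a circle (`exp(τA) = 1` for some `τ > 0`).  If at some point `x` of maximal length of
`A` the vectors `A x`, `B x` are linearly independent (`B x` is not a multiple of `A x`), then `M`
has infinitely many closed geodesics with pairwise distinct images. -/
theorem result (N m : ℕ) (_hm : 2 ≤ m) (M : Set (E N)) (_hM : IsSubmanifold m M)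
    (_hMc : IsCompact M) (A B : Op N) (hA : IsSymmetry M A) (hB : IsSymmetry M B)
    (hne : ∃ y ∈ M, ap A y ≠ 0) (hper : ∃ τ : ℝ, 0 < τ ∧ ∀ y, ap (expo τ A) y = y)
    (hind : ∃ x, IsFastest M A x ∧ ∀ b : ℝ, ap B x ≠ b • ap A x) :
    (ClosedGeodesicImages M).Infinite := by
  obtain ⟨τ, hτ, hp⟩ := hper
  obtain ⟨x, ⟨hx, hmax⟩, hb⟩ := hind
  obtain ⟨y, hy, hAy⟩ := hne
  have hmax' : ∀ z ∈ M, ‖A z‖ ≤ ‖A x‖ := by
    intro z hz
    have h := hmax z hz
    unfold ip ap at h
    rw [real_inner_self_eq_norm_sq, real_inner_self_eq_norm_sq] at h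
    exact (sq_le_sq₀ (norm_nonneg _) (norm_nonneg _)).mp h
  have hAx : A x ≠ 0 := by
    intro h0
    have := hmax' y hy
    rw [h0, norm_zero] at this
    exact hAy (norm_le_zero_iff.mp this)
  exact _root_.P216.infinite_of_two M A B hA.1 hB.1 τ hτ (ContinuousLinearMap.ext hp)
    hA.2 hB.2 x hx hmax' hAx hb

end Vale.Agent.Results.P216.TwoSymmetries
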